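import Vale.Agent.P133.Nrm

/-! P133: quotients by closed ideals. -/

namespace Vale.Agent.P133

universe u
variable {R : Type u} [CStarAlgebra R] [PartialOrder R] [StarOrderedRing R]

theorem Quot_unit (J : TwoSidedIdeal R) {y : R} (hy : y ∈ J) {ε : ℝ}
    (hε : 0 < ε) : ∃ e ∈ J, (IsSelfAdjoint (1 - e) ∧ ‖1 - e‖ ≤ 1) ∧ ‖y * (1 - e)‖ ≤ ε := by
  have sa := IsSelfAdjoint.star_mul_self y
  have sp : ∀ t ∈ spectrum ℝ (star y * y), 0 ≤ t := fun t ht =>
    spectrum_nonneg_of_nonneg (star_mul_self_nonneg y) ht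
  have cg : ContinuousOn (fun t : ℝ => (t + ε ^ 2)⁻¹) (spectrum ℝ (star y * y)) :=
    ContinuousOn.inv₀ (by fun_prop) fun t ht => by have := sp t ht; positivity
  have cf : ContinuousOn (fun t : ℝ => 1 - t * (t + ε ^ 2)⁻¹) (spectrum ℝ (star y * y)) :=
    continuousOn_const.sub ((continuousOn_id' _).mul cg)
  have e1 : 1 - star y * y * cfc (fun t : ℝ => (t + ε ^ 2)⁻¹) (star y * y) =
      cfc (fun t : ℝ => 1 - t * (t + ε ^ 2)⁻¹) (star y * y) := by
    rw [cfc_sub (fun _ => 1) (fun t => t * (t + ε ^ 2)⁻¹) _ continuousOn_const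
      ((continuousOn_id' _).mul cg), cfc_const_one ℝ _,
      cfc_mul _ _ _ (continuousOn_id' _) cg, cfc_id' ℝ _]
  have e2 : ∀ t, 0 ≤ t → 1 - t * (t + ε ^ 2)⁻¹ = ε ^ 2 / (t + ε ^ 2) := fun t ht => by
    field_simp; ring
  refine ⟨star y * y * cfc (fun t : ℝ => (t + ε ^ 2)⁻¹) (star y * y),
    J.mul_mem_right _ _ (J.mul_mem_left _ _ hy), ?_, ?_⟩ <;> rw [e1]
  · refine ⟨IsSelfAdjoint.cfc, norm_cfc_le zero_le_one fun t ht => ?_⟩
    have := sp t ht
    rw [e2 t this, Real.norm_of_nonneg (by positivity), div_le_one (by positivity)]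
    linarith
  · refine abs_le_of_sq_le_sq' ?_ hε.le |>.2
    rw [sq, ← CStarRing.norm_star_mul_self, star_mul, IsSelfAdjoint.cfc.star_eq, mul_assoc,
      ← mul_assoc (star y)]
    nth_rw 2 [← cfc_id' ℝ (star y * y)]
    rw [← cfc_mul _ _ _ (continuousOn_id' _) cf, ← cfc_mul _ (fun t => t * _) _ cf
      ((continuousOn_id' _).mul cf)]
    refine norm_cfc_le (sq_nonneg _) fun t ht => ?_
    have := sp t ht
    rw [e2 t this, Real.norm_of_nonneg (by positivity), div_mul_eq_mul_div, mul_div_assoc', ← mul_div_assoc,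
      div_div, div_le_iff₀ (by positivity)]
    have := sq_nonneg ε
    nlinarith [mul_nonneg this (mul_nonneg this this), mul_nonneg this (sq_nonneg t),
      mul_nonneg (mul_nonneg this this) ‹0 ≤ t›]

/-- Hint: adapt `quotS` and `quot_unit` of `Vale/Agent/P095/Quot.lean` (copy them, do not import);
order the quotient by `CStarAlgebra.spectralOrder`, `CStarAlgebra.spectralOrderedRing`;
`star_mem_of_closed` gives star invariance. -/
theorem exists_quot (J : TwoSidedIdeal R) (hJ : IsClosed (J : Set R)) :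
    ∃ π : Rep R, Function.Surjective π.hom ∧ ∀ x, π x = 0 ↔ x ∈ J := by
  let K : Ideal R := J.asIdeal
  have hK : ∀ x, x ∈ K ↔ x ∈ J := fun x => TwoSidedIdeal.mem_asIdeal
  have : IsClosed (K : Set R) := hJ
  let U := R ⧸ K
  have le : ∀ x : R, ‖(Submodule.Quotient.mk x : U)‖ ≤ ‖x‖ := fun x => Submodule.Quotient.norm_mk_le _ x
  have ap : ∀ (x : U) (ε : ℝ), 0 < ε → ∃ y : R, Submodule.Quotient.mk y = x ∧ ‖y‖ < ‖x‖ + ε :=
    fun x ε hε => Submodule.Quotient.norm_mk_lt x hε
  letI r : NormedRing U :=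
    { __ := Ideal.Quotient.ring K
      __ := Submodule.Quotient.normedAddCommGroup K
      norm_mul_le := fun x y => by
        refine le_of_forall_pos_le_add fun ε hε => ?_
        have t : ContinuousAt (fun p : ℝ => (‖x‖ + p) * (‖y‖ + p)) 0 := by fun_prop
        obtain ⟨δ, h1, h2⟩ := ((t.eventually (gt_mem_nhds (a := ‖x‖ * ‖y‖ + ε) (by simpa))).filter_mono
          (nhdsWithin_le_nhds (s := Set.Ioi 0)) |>.and self_mem_nhdsWithin).exists
        obtain ⟨a, rfl, ha⟩ := ap x δ h2
        obtain ⟨b, rfl, hb⟩ := ap y δ h2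
        exact ((le (a * b)).trans ((norm_mul_le a b).trans (mul_le_mul ha.le hb.le (norm_nonneg _)
          ((norm_nonneg _).trans ha.le)))).trans h1.le }
  letI s : StarRing U :=
    { star := Quotient.map' star fun x y h => by
        rw [Submodule.quotientRel_def] at h ⊢
        rw [← star_sub]
        exact (hK _).2 (star_mem_of_closed hJ ((hK _).1 h))
      star_involutive := by rintro ⟨x⟩; exact congrArg (Ideal.Quotient.mk _) (star_star x)
      star_mul := by rintro ⟨x⟩ ⟨y⟩; exact congrArg (Ideal.Quotient.mk _) (star_mul x y)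
      star_add := by rintro ⟨x⟩ ⟨y⟩; exact congrArg (Ideal.Quotient.mk _) (star_add x y) }
  letI a : Algebra ℂ U := Ideal.Quotient.algebra ℂ
  letI cs : CStarAlgebra U :=
    { __ := r, __ := s, __ := a
      star_smul := by rintro c ⟨x⟩; exact congrArg (Ideal.Quotient.mk _) (star_smul c x)
      complete := (Submodule.Quotient.completeSpace K).complete
      norm_mul_self_le := by
        rintro ⟨x⟩
        change ‖(Submodule.Quotient.mk x : U)‖ * ‖(Submodule.Quotient.mk x : U)‖ ≤
          ‖(Submodule.Quotient.mk (star x * x) : U)‖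
        refine le_of_forall_pos_le_add fun ε hε => ?_
        obtain ⟨b, hb, hb'⟩ := ap (Submodule.Quotient.mk (star x * x)) _ (half_pos hε)
        obtain ⟨e, he, e1, e2⟩ := Quot_unit J ((hK _).1 ((Submodule.Quotient.eq _).1 hb.symm))
          (half_pos hε)
        have h1 : (Submodule.Quotient.mk x : U) = Submodule.Quotient.mk (x * (1 - e)) :=
          (Submodule.Quotient.eq _).2 ((hK _).2 (by
            rw [mul_sub, mul_one, sub_sub_cancel]; exact J.mul_mem_left _ _ he))
        have h2 := le (x * (1 - e))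
        rw [← h1] at h2
        refine (mul_self_le_mul_self (norm_nonneg _) h2).trans ?_
        rw [← CStarRing.norm_star_mul_self, star_mul, e1.1.star_eq,
          show (1 - e) * star x * (x * (1 - e)) = (1 - e) * (b * (1 - e) + (star x * x - b) * (1 - e)) by
            noncomm_ring]
        have h3 := (norm_mul_le b (1 - e)).trans (mul_le_of_le_one_right (norm_nonneg _) e1.2)
        refine (norm_mul_le _ _).trans ((mul_le_of_le_one_left (norm_nonneg _) e1.2).trans
          ((norm_add_le _ _).trans ?_))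
        linarith
      norm_smul_le := fun c x => by
        refine le_of_forall_pos_le_add fun ε hε => ?_
        obtain ⟨y, rfl, hy⟩ := ap x (ε / (‖c‖ + 1)) (by positivity)
        refine (le (c • y)).trans ((norm_smul_le c y).trans ?_)
        have := mul_le_mul_of_nonneg_left hy.le (norm_nonneg c)
        have e : ‖c‖ * (ε / (‖c‖ + 1)) ≤ ε := by
          rw [mul_div_assoc', div_le_iff₀ (by positivity)]; nlinarith [norm_nonneg c]
        linarith }
  exact ⟨@Rep.mk R _ U cs (CStarAlgebra.spectralOrder U) (CStarAlgebra.spectralOrderedRing U)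
    { Ideal.Quotient.mkₐ ℂ K with map_star' := fun _ => rfl },
    Ideal.Quotient.mk_surjective, fun x => Ideal.Quotient.eq_zero_iff_mem.trans (hK x)⟩

theorem Rep.factor (π : Rep R) (hs : Function.Surjective π.hom) (ρ : Rep R)
    (h : ∀ x, π x = 0 → ρ x = 0) : ∃ τ : Rep π.M, ∀ x, ‖τ (π x)‖ = ‖ρ x‖ := by
  have key : ∀ x, ρ.hom (Function.surjInv hs (π.hom x)) = ρ.hom x := fun x => by
    rw [← sub_eq_zero, ← map_sub]
    refine h _ ?_
    change π.hom _ = 0
    rw [map_sub, Function.surjInv_eq hs, sub_self]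
  refine ⟨⟨ρ.M,
    { toFun := fun y => ρ.hom (Function.surjInv hs y)
      map_one' := by rw [← map_one π.hom, key, map_one]
      map_mul' := fun a b => ?_
      map_zero' := by rw [← map_zero π.hom, key, map_zero]
      map_add' := fun a b => ?_
      commutes' := fun c => by rw [← AlgHomClass.commutes π.hom, key, AlgHomClass.commutes]
      map_star' := fun a => ?_ }⟩, fun x => congrArg norm (key x)⟩
  · obtain ⟨a, rfl⟩ := hs a
    obtain ⟨b, rfl⟩ := hs b
    rw [← map_mul, key, key, key, map_mul]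
  · obtain ⟨a, rfl⟩ := hs a
    obtain ⟨b, rfl⟩ := hs b
    rw [← map_add, key, key, key, map_add]
  · obtain ⟨a, rfl⟩ := hs a
    rw [← map_star, key, key, map_star]

/-- the universal quotient killing `b`. Hint: quotient by the closed ideal of all `x` with
`∀ ρ : Rep R, ρ b = 0 → ρ x = 0`. -/
theorem exists_quot_kill (b : R) : ∃ π : Rep R, Function.Surjective π.hom ∧ π b = 0 ∧
    ∀ ρ : Rep R, ρ b = 0 → ∃ τ : Rep π.M, ∀ x, ‖τ (π x)‖ = ‖ρ x‖ := by
  let J := TwoSidedIdeal.mk' {x : R | ∀ ρ : Rep R, ρ.hom b = 0 → ρ.hom x = 0}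
    (fun ρ _ => map_zero _)
    (fun {x y} hx hy ρ h => by rw [map_add, hx ρ h, hy ρ h, add_zero])
    (fun {x} hx ρ h => by rw [map_neg, hx ρ h, neg_zero])
    (fun {x y} hy ρ h => by rw [map_mul, hy ρ h, mul_zero])
    (fun {x y} hx ρ h => by rw [map_mul, hx ρ h, zero_mul])
  have hJ : ∀ x, x ∈ J ↔ ∀ ρ : Rep R, ρ.hom b = 0 → ρ.hom x = 0 := fun x =>
    TwoSidedIdeal.mem_mk' ..
  obtain ⟨π, h1, h2⟩ := exists_quot J (by
    rw [TwoSidedIdeal.coe_mk']
    simp only [Set.ofPred_forall]
    exact isClosed_iInter fun ρ => isClosed_iInter fun _ =>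
      isClosed_eq (continuous_hom ρ.hom) continuous_const)
  exact ⟨π, h1, (h2 b).2 ((hJ b).2 fun _ h => h), fun ρ h =>
    π.factor h1 ρ fun x hx => (hJ x).1 ((h2 x).1 hx) ρ h⟩

end Vale.Agent.P133
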